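import Vale.Agent.P242.H124.Contr

set_option linter.all false

open MeasureTheory Set Metric Filter Topology
open scoped ENNReal

universe u

namespace Vale.Agent.P242.H124

variable {X : Type u} [MetricSpace X] [MeasurableSpace X] [BorelSpace X]

/-- The block map of level `τ`: bounds. -/
theorem block_on {m : Measure X} {N Q R₀ : ℝ} (h : Contr m N Q R₀)
    (hfin : ∀ (x : X) (r : ℝ), m (ball x r) < ∞) (hN : 0 < N) (hQ0 : 0 < Q) (hQ1 : Q < 1)
    (hQN : Q⁻¹ ^ 8 - Q * (12 : ℝ) ^ (-N) ≤ 1 - (12 : ℝ) ^ (-N) / 2)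
    {L R₁ : ℝ} (hL : 1 < L) (hLN : Q ≤ (1 - L⁻¹) ^ N) (hR₁ : 0 < R₁) (hR₁₀ : R₁ ≤ R₀)
    {a b : ℝ} (ha : 0 < a) (hb : 0 < b)
    {S : Set X}
    (hub : ∀ x ∈ S, ∀ (r : ℝ), 0 < r → r ≤ R₁ → m.real (ball x r) ≤ b * r ^ N)
    {τ : ℝ} (hτ : 0 < τ) :
    ∃ F : S → Lp ℝ 2 (wMeas m N (scaleFn m N L R₁ τ)),
      (∀ x x' : S, ‖F x - F x'‖ ^ 2 ≤ 8 * b * dist (x : X) x' ^ 2) ∧
      (∀ x x' : S, (x : X) ≠ x' → 3 * dist (x : X) x' / 2 ≤ R₁ →
        (∀ r : ℝ, 0 < r → r ≤ R₁ → a ≤ m.real (ball (x : X) r) / r ^ N) →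
        τ ≤ m.real (ball (x : X) (3 * dist (x : X) x' / 2)) / (3 * dist (x : X) x' / 2) ^ N →
        m.real (ball (x : X) (3 * dist (x : X) x' / 2)) / (3 * dist (x : X) x' / 2) ^ N ≤
          Q⁻¹ * τ →
        (1 / (8 * L)) ^ 2 * (a * (12 : ℝ) ^ (-N) / 2 * (64 * L) ^ (-(2 * N))) *
          dist (x : X) x' ^ 2 ≤ ‖F x - F x'‖ ^ 2) := by
  set ρ := scaleFn m N L R₁ τ with hρ
  set μ := wMeas m N ρ with hμ
  have hL0 : 0 < L := by linarith only [hL]
  have hlip : ∀ x x', |ρ x - ρ x'| ≤ L * dist x x' := scaleFn_lip hL0.le hR₁.le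
  have hρ0 : ∀ x, 0 ≤ ρ x := scaleFn_nonneg hL0.le hR₁.le
  have hρR : ∀ x, ρ x ≤ R₁ := scaleFn_le hL0.le hR₁.le
  -- the measure of the supporting balls
  have hμball : ∀ x ∈ S, μ (ball x (ρ x / (8 * L))) ≤ ENNReal.ofReal b := by
    intro x hxS
    rcases (hρ0 x).eq_or_lt with h0 | h0
    · rw [← h0, zero_div, ball_zero, measure_empty]
      exact bot_le
    · have e1 : ∀ y ∈ ball x (ρ x / (8 * L)), 7 / 8 * ρ x ≤ ρ y := by
        intro y hy
        rw [mem_ball, dist_comm, lt_div_iff₀ (by positivity)] at hy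
        have e2 := (abs_le.1 (hlip x y)).2
        nlinarith only [hy, e2]
      refine (wMeas_le hN measurableSet_ball (hfin _ _).ne (by (clear * - h0; positivity)) e1).trans ?_
      apply ENNReal.ofReal_le_ofReal
      have e3 : ρ x / (8 * L) ≤ R₁ := by
        rw [div_le_iff₀ (by positivity)]
        have := hρR x
        nlinarith only [this, hR₁, hL]
      have e4 := hub x hxS (ρ x / (8 * L)) (by (clear * - h0 hL; positivity)) e3
      have e5 : (ρ x / (8 * L)) ^ N ≤ (7 / 8 * ρ x) ^ N := by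
        apply Real.rpow_le_rpow (by positivity) _ hN.le
        rw [div_le_iff₀ (by positivity)]
        nlinarith only [h0, hL]
      have e6 : (7 / 8 * ρ x) ^ (-N) * (7 / 8 * ρ x) ^ N = 1 := by
        rw [← Real.rpow_add (by (clear * - h0; positivity)), neg_add_cancel, Real.rpow_zero]
      calc (7 / 8 * ρ x) ^ (-N) * m.real (ball x (ρ x / (8 * L)))
          ≤ (7 / 8 * ρ x) ^ (-N) * (b * (7 / 8 * ρ x) ^ N) := by
            apply mul_le_mul_of_nonneg_left _ (by positivity)
            exact e4.trans (mul_le_mul_of_nonneg_left e5 hb.le)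
        _ = b * ((7 / 8 * ρ x) ^ (-N) * (7 / 8 * ρ x) ^ N) := by ring
        _ = b := by rw [e6, mul_one]
  have hfinb : ∀ x ∈ S, μ (ball x (ρ x / (8 * L))) < ∞ := fun x hxS =>
    (hμball x hxS).trans_lt ENNReal.ofReal_lt_top
  have hmem : ∀ x ∈ S, MemLp (bump ρ L x) 2 μ := by
    intro x hxS
    apply memLp_of_bdd_supp (bump_continuous ρ L x).measurable measurableSet_ball (hfinb x hxS)
      (C := R₁) _ (fun y hy => bump_eq_zero hy)
    intro y
    rw [abs_of_nonneg (bump_nonneg _ _ _ _)]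
    apply max_le hR₁.le
    have e1 : ρ x / (8 * L) ≤ R₁ := by
      rw [div_le_iff₀ (by positivity)]
      have := hρR x
      nlinarith only [this, hR₁, hL]
    have := dist_nonneg (x := x) (y := y)
    linarith only [e1, this]
  refine ⟨fun x => (hmem x x.2).toLp (bump ρ L x), ?_, ?_⟩
  · rintro ⟨x, hxS⟩ ⟨x', hxS'⟩
    rw [← MemLp.toLp_sub]
    simp only
    have e1 : μ (ball x (ρ x / (8 * L)) ∪ ball x' (ρ x' / (8 * L))) ≤ ENNReal.ofReal (2 * b) := by
      refine (measure_union_le _ _).trans ?_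
      rw [two_mul, ENNReal.ofReal_add hb.le hb.le]
      exact add_le_add (hμball x hxS) (hμball x' hxS')
    have e2 := norm_sq_toLp_le ((hmem x hxS).sub (hmem x' hxS')) (e1.trans_lt ENNReal.ofReal_lt_top)
      (C := 2 * dist x x') (fun y => bump_sub_le hL0 hlip x x' y) (by
        intro y hy
        rw [mem_union, not_or] at hy
        rw [Pi.sub_apply, bump_eq_zero hy.1, bump_eq_zero hy.2, sub_zero])
    refine e2.trans ?_
    have e3 : μ.real (ball x (ρ x / (8 * L)) ∪ ball x' (ρ x' / (8 * L))) ≤ 2 * b := by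
      rw [Measure.real]
      exact ENNReal.toReal_le_of_le_ofReal (by positivity) e1
    calc (2 * dist x x') ^ 2 * μ.real (ball x (ρ x / (8 * L)) ∪ ball x' (ρ x' / (8 * L)))
        ≤ (2 * dist x x') ^ 2 * (2 * b) := mul_le_mul_of_nonneg_left e3 (by (clear * -; positivity))
      _ = _ := by ring
  · rintro ⟨x, hxS⟩ ⟨x', hxS'⟩ hne hsR hlow hV1 hV2
    simp only at hne hsR hlow hV1 hV2 ⊢
    set s := dist x x' with hs
    have hs0 : 0 < s := dist_pos.2 hne
    set r := ρ x with hr
    have hsr : 3 * s / 2 ≤ r := le_scaleFn hL0.le hR₁.le (by (clear * - hs0; positivity)) hsR hV1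
    have hr0 : 0 < r := by linarith only [hs0, hsr]
    have hrR : r ≤ R₁ := hρR x
    -- it is enough to find a good set
    have key : ∀ (T : Set X), MeasurableSet T → T ⊆ ball x (r / (8 * L)) →
        a * (12 : ℝ) ^ (-N) / 2 * (64 * L) ^ (-(2 * N)) * (2 * r) ^ N ≤ m.real T →
        (∀ y ∈ T, 1 / (8 * L) * s ≤ |bump ρ L x y - bump ρ L x' y|) →
        (1 / (8 * L)) ^ 2 * (a * (12 : ℝ) ^ (-N) / 2 * (64 * L) ^ (-(2 * N))) * s ^ 2 ≤
          ‖(hmem x hxS).toLp (bump ρ L x) - (hmem x' hxS').toLp (bump ρ L x')‖ ^ 2 := by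
      intro T hT hTs hTm hTd
      rw [← MemLp.toLp_sub]
      have hTm' : m T ≠ ∞ := ((measure_mono hTs).trans_lt (hfin _ _)).ne
      have hTμ : μ T ≠ ∞ := ((measure_mono hTs).trans_lt (hfinb x hxS)).ne
      have e1 := le_norm_sq_toLp ((hmem x hxS).sub (hmem x' hxS')) hT hTμ
        (c := 1 / (8 * L) * s) (by (clear * - hL hs0; positivity)) hTd
      refine le_trans ?_ e1
      have e2 : ∀ y ∈ T, 0 < ρ y ∧ ρ y ≤ 2 * r := by
        intro y hy
        have hy2 := hTs hy
        rw [mem_ball, dist_comm, lt_div_iff₀ (by positivity)] at hy2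
        have e3 := abs_le.1 (hlip x y)
        constructor <;> nlinarith only [hy2, e3]
      have e4 := le_wMeas hN hT hTm' e2 (by (clear * - hr0; positivity))
      have e5 : (2 * r) ^ (-N) * m.real T ≤ μ.real T := by
        have := ENNReal.toReal_mono hTμ e4
        rwa [ENNReal.toReal_ofReal (by (clear * - hr0; positivity))] at this
      have e6 : (2 * r) ^ (-N) * (2 * r) ^ N = 1 := by
        rw [← Real.rpow_add (by (clear * - hr0; positivity)), neg_add_cancel, Real.rpow_zero]
      have e7 : a * (12 : ℝ) ^ (-N) / 2 * (64 * L) ^ (-(2 * N)) ≤ μ.real T := by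
        refine le_trans ?_ e5
        calc a * (12 : ℝ) ^ (-N) / 2 * (64 * L) ^ (-(2 * N))
            = (2 * r) ^ (-N) * (a * (12 : ℝ) ^ (-N) / 2 * (64 * L) ^ (-(2 * N)) *
                (2 * r) ^ N) := by
              rw [← mul_one (a * (12 : ℝ) ^ (-N) / 2 * (64 * L) ^ (-(2 * N)))]
              conv_lhs => rw [← e6]
              ring
          _ ≤ _ := mul_le_mul_of_nonneg_left hTm (by (clear * - hr0; positivity))
      calc (1 / (8 * L)) ^ 2 * (a * (12 : ℝ) ^ (-N) / 2 * (64 * L) ^ (-(2 * N))) * s ^ 2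
          = (1 / (8 * L) * s) ^ 2 * (a * (12 : ℝ) ^ (-N) / 2 * (64 * L) ^ (-(2 * N))) := by ring
        _ ≤ _ := mul_le_mul_of_nonneg_left e7 (by (clear * - hL hs0; positivity))
    have hNpow : ∀ u v : ℝ, 0 < u → 0 < v → u ≤ v → u ^ N ≤ v ^ N := fun u v hu hv huv =>
      Real.rpow_le_rpow hu.le huv hN.le
    have h12 : (12 : ℝ) ^ (-N) ≤ 1 := Real.rpow_le_one_of_one_le_of_nonpos (by norm_num)
      (by linarith only [hN])
    have h12p : 0 < (12 : ℝ) ^ (-N) := by positivity
    rcases le_or_gt (64 * L * s) r with hcase | hcase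
    · -- small `s`
      set R := r / (16 * L) with hR
      have hR0 : 0 < R := by (clear * - hr0 hL; positivity)
      have hRr : R < r := by
        rw [hR, div_lt_iff₀ (by positivity)]
        nlinarith only [hs0, hL, hsr]
      have hsR4 : 4 * s ≤ R := by
        rw [hR, le_div_iff₀ (by positivity)]
        linarith only [hcase]
      have hratio := scaleFn_ratio h hfin hQ0 hQ1.le hL hLN hR₁₀ hτ.le hR0 hRr
      have hV : m.real (ball x (3 * s / 2)) / (3 * s / 2) ^ N ≤
          Q⁻¹ ^ 4 * (m.real (ball x R) / R ^ N) := by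
        refine hV2.trans ?_
        calc Q⁻¹ * τ = Q⁻¹ ^ 4 * (Q ^ 3 * τ) := by (clear * - hτ hQ0; field_simp)
          _ ≤ _ := mul_le_mul_of_nonneg_left hratio (by positivity)
      have hpair := pair h hfin hQ0 hQ1 hQN hs0 rfl hsR4 (by linarith only [hR₁₀, hrR, hRr]) hV
      have hlowR := hlow R hR0 (by linarith only [hrR, hRr])
      rw [le_div_iff₀ (by (clear * - hr0 hL; positivity))] at hlowR
      apply key {y ∈ ball x R | s / 4 ≤ dist x y - dist x' y}
      · apply measurableSet_ball.inter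
        exact (isClosed_le continuous_const ((continuous_const.dist continuous_id).sub
          (continuous_const.dist continuous_id))).measurableSet
      · intro y hy
        refine ball_subset_ball ?_ hy.1
        rw [hR]
        gcongr
        norm_num
      · refine le_trans ?_ hpair
        calc a * (12 : ℝ) ^ (-N) / 2 * (64 * L) ^ (-(2 * N)) * (2 * r) ^ N
            = (12 : ℝ) ^ (-N) / 2 * (a * ((64 * L) ^ (-(2 * N)) * (2 * r) ^ N)) := by ring
          _ = (12 : ℝ) ^ (-N) / 2 * (a * (2 * r / (64 * L) ^ 2) ^ N) := by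
              rw [pow_aux hL0 (by (clear * - hr0; positivity))]
          _ ≤ (12 : ℝ) ^ (-N) / 2 * (a * R ^ N) := by
              apply mul_le_mul_of_nonneg_left _ (by positivity)
              apply mul_le_mul_of_nonneg_left _ ha.le
              apply hNpow _ _ (by (clear * - hr0 hL; positivity)) hR0
              rw [hR, div_le_div_iff₀ (by positivity) (by positivity)]
              nlinarith only [hL, mul_pos (mul_pos hr0 hL0) hL0]
          _ ≤ _ := mul_le_mul_of_nonneg_left hlowR (by positivity)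
      · rintro y ⟨hy1, hy2⟩
        rw [mem_ball, dist_comm] at hy1
        exact bump_diff_small hL hlip hr0 hy1 hy2
    · -- large `s`
      apply key (ball x (s / (16 * L))) measurableSet_ball
      · apply ball_subset_ball
        rw [div_le_div_iff₀ (by positivity) (by positivity)]
        nlinarith only [hsr, hs0, hL]
      · have hsR1 : s / (16 * L) ≤ R₁ := by
          rw [div_le_iff₀ (by positivity)]
          nlinarith only [hsR, hL, hR₁]
        have hlowR := hlow (s / (16 * L)) (by (clear * - hs0 hL; positivity)) hsR1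
        rw [le_div_iff₀ (by (clear * - hs0 hL; positivity))] at hlowR
        refine le_trans ?_ hlowR
        calc a * (12 : ℝ) ^ (-N) / 2 * (64 * L) ^ (-(2 * N)) * (2 * r) ^ N
            = (12 : ℝ) ^ (-N) / 2 * (a * ((64 * L) ^ (-(2 * N)) * (2 * r) ^ N)) := by ring
          _ = (12 : ℝ) ^ (-N) / 2 * (a * (2 * r / (64 * L) ^ 2) ^ N) := by
              rw [pow_aux hL0 (by (clear * - hr0; positivity))]
          _ ≤ 1 * (a * (2 * r / (64 * L) ^ 2) ^ N) := by
              apply mul_le_mul_of_nonneg_right _ (by (clear * - ha hr0 hL; positivity))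
              linarith only [h12]
          _ ≤ a * (s / (16 * L)) ^ N := by
              rw [one_mul]
              apply mul_le_mul_of_nonneg_left _ ha.le
              apply hNpow _ _ (by (clear * - hr0 hL; positivity)) (by positivity)
              rw [div_le_div_iff₀ (by positivity) (by positivity)]
              have h1 : r * L ≤ 64 * L * s * L := mul_le_mul_of_nonneg_right hcase.le hL0.le
              nlinarith only [h1, hs0]
      · intro y hy
        rw [mem_ball, dist_comm] at hy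
        exact bump_diff_large hL hlip hs0 hsr hy


end Vale.Agent.P242.H124
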