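import Vale.Agent.P242.H124.Defs
import Vale.Agent.P242.Bdl.B1

set_option linter.all false

open MeasureTheory Set Metric ProbabilityTheory
open scoped ENNReal

universe u

namespace Vale.Agent.P242.H124

section

variable {X : Type u} [MetricSpace X] [CompleteSpace X] [SecondCountableTopology X]
  [MeasurableSpace X] [BorelSpace X]

omit [CompleteSpace X] [SecondCountableTopology X] [BorelSpace X] in
/-- Hoelder's inequality for the Renyi entropy of a measure concentrated on `W` -/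
theorem entropy_le {m ν : Measure X} [SigmaFinite m] [IsProbabilityMeasure ν] {N : ℝ}
    (hN : 1 < N) {W : Set X} (hWm : MeasurableSet W) (hconc : ν Wᶜ = 0) :
    ∫⁻ z, (ν.rnDeriv m z) ^ (1 - 1 / N) ∂m ≤ (m W) ^ (1 / N) := by
  have hN0 : 0 < N := by linarith only [hN]
  have hexp : 0 < 1 - 1 / N := by
    have : 1 / N < 1 := by rw [div_lt_one hN0]; exact hN
    linarith only [this]
  have hzero : ∀ᵐ y ∂m, y ∈ Wᶜ → ν.rnDeriv m y = 0 := by
    have h1 : ∫⁻ y in Wᶜ, ν.rnDeriv m y ∂m = 0 := by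
      apply le_antisymm _ zero_le
      rw [← hconc]
      exact Measure.setLIntegral_rnDeriv_le _
    rw [lintegral_eq_zero_iff (Measure.measurable_rnDeriv _ _)] at h1
    exact (ae_restrict_iff' hWm.compl).1 h1
  have h2 : ∫⁻ z, (ν.rnDeriv m z) ^ (1 - 1 / N) ∂m =
      ∫⁻ z in W, (ν.rnDeriv m z) ^ (1 - 1 / N) ∂m := by
    rw [← lintegral_indicator hWm]
    apply lintegral_congr_ae
    filter_upwards [hzero] with y hy
    by_cases hyW : y ∈ W
    · rw [indicator_of_mem hyW]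
    · rw [indicator_of_notMem hyW, hy hyW, ENNReal.zero_rpow_of_pos hexp]
  rw [h2]
  have hconj := (Real.HolderConjugate.conjExponent hN).symm
  have h3 := ENNReal.lintegral_mul_le_Lp_mul_Lq (m.restrict W) hconj
    (f := fun z => (ν.rnDeriv m z) ^ (1 - 1 / N)) (g := fun _ => 1)
    ((Measure.measurable_rnDeriv _ _).pow_const _).aemeasurable aemeasurable_const
  have h4 : ∀ z, ((ν.rnDeriv m z) ^ (1 - 1 / N)) ^ (Real.conjExponent N) =
      ν.rnDeriv m z := by
    intro z
    rw [← ENNReal.rpow_mul]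
    have hN1 : N - 1 ≠ 0 := by linarith only [hN]
    have : (1 - 1 / N) * Real.conjExponent N = 1 := by
      unfold Real.conjExponent
      (clear * - hN hN1; field_simp)
    rw [this, ENNReal.rpow_one]
  simp only [h4, Pi.mul_apply, mul_one, ENNReal.one_rpow, lintegral_const,
    Measure.restrict_apply_univ, one_mul] at h3
  have h5 : (∫⁻ z in W, ν.rnDeriv m z ∂m) ≤ 1 :=
    (Measure.setLIntegral_rnDeriv_le _).trans prob_le_one
  refine h3.trans ?_
  calc _ ≤ (1 : ℝ≥0∞) ^ (1 / Real.conjExponent N) * (m W) ^ (1 / N) := by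
        apply mul_le_mul_left
        apply ENNReal.rpow_le_rpow h5
        exact one_div_nonneg.2 hconj.nonneg
    _ = _ := by rw [ENNReal.one_rpow, one_mul]

omit [CompleteSpace X] [SecondCountableTopology X] [BorelSpace X] in
theorem unif_deriv {m : Measure X} [SigmaFinite m] {A : Set X} (hA : MeasurableSet A)
    (hA0 : m A ≠ 0) (hAtop : m A ≠ ∞) :
    ∀ᵐ y ∂(unif m A), (unif m A).rnDeriv m y = (m A)⁻¹ := by
  have h1 : (unif m A).rnDeriv m =ᵐ[m] (m A)⁻¹ • (m.restrict A).rnDeriv m :=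
    Measure.rnDeriv_smul_left_of_ne_top' _ _ (ENNReal.inv_ne_top.2 hA0)
  have h2 : (m.restrict A).rnDeriv m =ᵐ[m] A.indicator 1 := Measure.rnDeriv_restrict_self m hA
  have h3 : ∀ᵐ y ∂m, y ∈ A → (unif m A).rnDeriv m y = (m A)⁻¹ := by
    filter_upwards [h1, h2] with y hy1 hy2 hyA
    rw [hy1, Pi.smul_apply, hy2, indicator_of_mem hyA, smul_eq_mul, Pi.one_apply, mul_one]
  have hac : unif m A ≪ m := (Measure.restrict_le_self.absolutelyContinuous).smul_left _
  have h4 : ∀ᵐ y ∂(unif m A), y ∈ A → (unif m A).rnDeriv m y = (m A)⁻¹ := hac.ae_le h3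
  have h5 : ∀ᵐ y ∂(unif m A), y ∈ A := unif_compl hA
  filter_upwards [h4, h5] with y h6 h7 using h6 h7

/-- the measure contraction inequality obtained from `MCP(K,N)` -/
theorem contraction_mcp {m : Measure X} {K N Q θ₀ : ℝ} (hfin : ∀ (x : X) (r : ℝ), m (ball x r) < ∞)
    (hMCP : IsMCP K N m) (hN : 1 < N)
    (hθ₀ : 0 < θ₀) (hτ : ∀ θ, 0 ≤ θ → θ ≤ θ₀ → ∀ t, 0 < t → t ≤ 1 →
      ENNReal.ofReal (Q * t ^ N) ≤ tauCoeff K N t θ ^ N)
    (x : X) (R κ t : ℝ) (hR : 0 < R) (hRR : R ≤ θ₀ / 2) (hκ : 0 < κ) (hκR : κ ≤ θ₀ / 2)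
    (ht0 : 0 < t) (ht1 : t < 1) (A : Set X) (hA : MeasurableSet A) (hAsub : A ⊆ ball x R) :
    ENNReal.ofReal (Q * t ^ N) * m A ≤ m (midSet (ball x κ) A t κ) := by
  have hN0 : 0 < N := by linarith only [hN]
  have hsig : SigmaFinite m := by
    have : IsLocallyFiniteMeasure m := ⟨fun y => ⟨ball y 1, ball_mem_nhds y one_pos, hfin y 1⟩⟩
    infer_instance
  by_cases hA0 : m A = 0
  · rw [hA0, mul_zero]
    exact zero_le
  have hAtop : m A ≠ ∞ := ((measure_mono hAsub).trans_lt (hfin x R)).ne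
  obtain ⟨Γ, hΓ0, hΓ1, hΓ, hΓP, hconv⟩ :=
    hMCP x A hA (Metric.isBounded_ball.subset hAsub) hA0 hAtop
  change Γ 1 = unif m A at hΓ1
  have htI : t ∈ Icc (0 : ℝ) 1 := ⟨ht0.le, ht1.le⟩
  have htI' : t ∈ Ioc (0 : ℝ) 1 := ⟨ht0, ht1.le⟩
  have hprobt : IsProbabilityMeasure (Γ t) := (hΓP t htI').1
  have hprob1 : IsProbabilityMeasure (unif m A) := by
    rw [← hΓ1]
    exact (hΓP 1 ⟨one_pos, le_refl _⟩).1
  have hA1 : ∀ᵐ y ∂(unif m A), y ∈ A := unif_compl hA
  -- finiteness of the Wasserstein distance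
  have hWfin : W2sq (Measure.dirac x) (unif m A) ≠ ∞ := by
    have hmeas : Measurable fun y : X => (x, y) := measurable_prodMk_left
    have hc : IsCoupling (Measure.dirac x) (unif m A)
        ((unif m A).map (fun y => (x, y))) := by
      refine ⟨?_, ?_⟩
      · rw [Measure.map_map measurable_fst hmeas]
        have : (Prod.fst ∘ fun y : X => (x, y)) = fun _ => x := rfl
        rw [this, Measure.map_const, measure_univ, one_smul]
      · rw [Measure.map_map measurable_snd hmeas]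
        have : (Prod.snd ∘ fun y : X => (x, y)) = id := rfl
        rw [this, Measure.map_id]
    have h1 : W2sq (Measure.dirac x) (unif m A) ≤
        transportCost ((unif m A).map (fun y => (x, y))) := iInf₂_le _ hc
    refine (h1.trans_lt ?_).ne
    unfold transportCost
    have h2 : Measurable fun z : X × X => ENNReal.ofReal (dist z.1 z.2 ^ 2) :=
      ((measurable_fst.dist measurable_snd).pow_const 2).ennreal_ofReal
    rw [lintegral_map h2 hmeas]
    have h3 : ∫⁻ y, ENNReal.ofReal (dist x y ^ 2) ∂(unif m A) ≤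
        ∫⁻ _, ENNReal.ofReal (R ^ 2) ∂(unif m A) := by
      apply lintegral_mono_ae
      filter_upwards [hA1] with y hy
      apply ENNReal.ofReal_le_ofReal
      have := hAsub hy
      rw [mem_ball, dist_comm] at this
      exact pow_le_pow_left₀ dist_nonneg this.le 2
    rw [lintegral_const, measure_univ, mul_one] at h3
    exact h3.trans_lt ENNReal.ofReal_lt_top
  -- concentration
  set W := midSet (ball x κ) A t κ with hW
  have hWm : MeasurableSet W := (isOpen_midSet _ _ _ _).measurableSet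
  have hd0 : (Measure.dirac x) (ball x κ)ᶜ = 0 := by
    rw [Measure.dirac_apply' _ measurableSet_ball.compl, indicator_of_notMem]
    simp [hκ]
  have hconc : Γ t Wᶜ = 0 := by
    have h0 := hΓ 0 ⟨le_refl _, zero_le_one⟩ t htI
    have h1 := hΓ t htI 1 ⟨zero_le_one, le_refl _⟩
    rw [hΓ0, hΓ1] at h0 h1
    refine midpoint_conc ht0 ht1 hκ hWfin rfl ?_ ?_ measurableSet_ball hA
      hd0 (unif_compl hA)
    · rw [h0]
      congr 2
      ring
    · rw [h1]
      congr 2
      ring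
  -- lower bound for the left side
  have hlow : ENNReal.ofReal (Q * t ^ N) ^ (1 / N) * (m A) ^ (1 / N) ≤
      ∫⁻ z, ((Γ t).rnDeriv m z) ^ (1 - 1 / N) ∂m := by
    refine le_trans ?_ (hconv t htI')
    rw [hΓ1]
    calc ENNReal.ofReal (Q * t ^ N) ^ (1 / N) * (m A) ^ (1 / N)
        = ∫⁻ _, ENNReal.ofReal (Q * t ^ N) ^ (1 / N) * (m A) ^ (1 / N) ∂(unif m A) := by
          rw [lintegral_const, measure_univ, mul_one]
      _ ≤ _ := by
          apply lintegral_mono_ae
          filter_upwards [hA1, unif_deriv hA hA0 hAtop] with y h1 h2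
          have h1' := hAsub h1
          rw [mem_ball, dist_comm] at h1'
          apply mul_le_mul'
          · have h3 := hτ (dist x y) dist_nonneg (by linarith only [h1', hRR, hθ₀]) t ht0 ht1.le
            have h4 := ENNReal.rpow_le_rpow h3 (z := 1 / N) (by positivity)
            rwa [← ENNReal.rpow_mul, mul_one_div_cancel hN0.ne', ENNReal.rpow_one] at h4
          · rw [h2, neg_div, ENNReal.rpow_neg, ← ENNReal.inv_rpow, inv_inv]
  -- conclusion
  have hfinal := hlow.trans (entropy_le hN hWm hconc)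
  rw [← ENNReal.mul_rpow_of_nonneg _ _ (by positivity)] at hfinal
  have h6 := ENNReal.rpow_le_rpow hfinal hN0.le
  rwa [← ENNReal.rpow_mul, ← ENNReal.rpow_mul, one_div_mul_cancel hN0.ne', ENNReal.rpow_one,
    ENNReal.rpow_one] at h6

/-- the measure contraction inequality obtained from `CD(K,N)` -/
theorem contraction_cd {m : Measure X} {K N Q θ₀ : ℝ} (hfin : ∀ (x : X) (r : ℝ), m (ball x r) < ∞)
    (hpos : ∀ (x : X) (r : ℝ), 0 < r → 0 < m (ball x r)) (hCD : IsCD K N m) (hN : 1 < N)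
    (hθ₀ : 0 < θ₀) (hτ : ∀ θ, 0 ≤ θ → θ ≤ θ₀ → ∀ t, 0 < t → t ≤ 1 →
      ENNReal.ofReal (Q * t ^ N) ≤ tauCoeff K N t θ ^ N)
    (x : X) (R κ t : ℝ) (hR : 0 < R) (hRR : R ≤ θ₀ / 2) (hκ : 0 < κ) (hκR : κ ≤ θ₀ / 2)
    (ht0 : 0 < t) (ht1 : t < 1) (A : Set X) (hA : MeasurableSet A) (hAsub : A ⊆ ball x R) :
    ENNReal.ofReal (Q * t ^ N) * m A ≤ m (midSet (ball x κ) A t κ) := by
  have hN0 : 0 < N := by linarith only [hN]
  have hsig : SigmaFinite m := by
    have : IsLocallyFiniteMeasure m := ⟨fun y => ⟨ball y 1, ball_mem_nhds y one_pos, hfin y 1⟩⟩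
    infer_instance
  by_cases hA0 : m A = 0
  · rw [hA0, mul_zero]
    exact zero_le
  have hAtop : m A ≠ ∞ := ((measure_mono hAsub).trans_lt (hfin x R)).ne
  have hB0 : m (ball x κ) ≠ 0 := (hpos x κ hκ).ne'
  have hBtop : m (ball x κ) ≠ ∞ := (hfin x κ).ne
  have hP0 : IsP2 m (unif m (ball x κ)) := unif_isP2 (Subset.refl _) hB0 hBtop
  have hP1 : IsP2 m (unif m A) := unif_isP2 hAsub hA0 hAtop
  obtain ⟨q, Γ, ⟨hqc, hqo⟩, hΓ0, hΓ1, hΓ, hΓP, hconv⟩ := hCD _ _ hP0 hP1
  have hprob0 : IsProbabilityMeasure (unif m (ball x κ)) := hP0.1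
  have hprobq : IsProbabilityMeasure q := hqc.isProb
  have htI : t ∈ Icc (0 : ℝ) 1 := ⟨ht0.le, ht1.le⟩
  have hprobt : IsProbabilityMeasure (Γ t) := (hΓP t htI).1
  -- supports
  have hq0 : ∀ᵐ z ∂q, z.1 ∈ ball x κ := by
    have h1 : ∀ᵐ y ∂(q.map Prod.fst), y ∈ ball x κ := by
      rw [hqc.1]
      exact unif_compl measurableSet_ball
    exact ae_of_ae_map measurable_fst.aemeasurable h1
  have hq1 : ∀ᵐ z ∂q, z.2 ∈ A := by
    have h1 : ∀ᵐ y ∂(q.map Prod.snd), y ∈ A := by
      rw [hqc.2]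
      exact unif_compl hA
    exact ae_of_ae_map measurable_snd.aemeasurable h1
  have hqd : ∀ᵐ z ∂q, dist z.1 z.2 ≤ θ₀ := by
    filter_upwards [hq0, hq1] with z h1 h2
    have h3 := hAsub h2
    rw [mem_ball] at h1 h3
    have h4 := dist_triangle_right z.1 z.2 x
    linarith only [hRR, hκR, h1, h3, h4]
  -- finiteness of the Wasserstein distance
  have hWfin : W2sq (unif m (ball x κ)) (unif m A) ≠ ∞ := by
    rw [← hqo]
    unfold transportCost
    have h1 : ∫⁻ z, ENNReal.ofReal (dist z.1 z.2 ^ 2) ∂q ≤ ∫⁻ z, ENNReal.ofReal (θ₀ ^ 2) ∂q := by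
      apply lintegral_mono_ae
      filter_upwards [hqd] with z hz
      apply ENNReal.ofReal_le_ofReal
      exact pow_le_pow_left₀ dist_nonneg hz 2
    rw [lintegral_const, measure_univ, mul_one] at h1
    exact (h1.trans_lt ENNReal.ofReal_lt_top).ne
  -- concentration
  set W := midSet (ball x κ) A t κ with hW
  have hWm : MeasurableSet W := (isOpen_midSet _ _ _ _).measurableSet
  have hconc : Γ t Wᶜ = 0 := by
    have h0 := hΓ 0 ⟨le_refl _, zero_le_one⟩ t htI
    have h1 := hΓ t htI 1 ⟨zero_le_one, le_refl _⟩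
    rw [hΓ0, hΓ1] at h0 h1
    refine midpoint_conc ht0 ht1 hκ hWfin rfl ?_ ?_ measurableSet_ball hA
      (unif_compl measurableSet_ball) (unif_compl hA)
    · rw [h0]
      congr 2
      ring
    · rw [h1]
      congr 2
      ring
  -- lower bound for the left side
  have hderiv : ∀ᵐ z ∂q, (unif m A).rnDeriv m z.2 = (m A)⁻¹ := by
    have h4 : ∀ᵐ y ∂(q.map Prod.snd), (unif m A).rnDeriv m y = (m A)⁻¹ := by
      rw [hqc.2]
      exact unif_deriv hA hA0 hAtop
    exact ae_of_ae_map measurable_snd.aemeasurable h4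
  have hlow : ENNReal.ofReal (Q * t ^ N) ^ (1 / N) * (m A) ^ (1 / N) ≤
      ∫⁻ z, ((Γ t).rnDeriv m z) ^ (1 - 1 / N) ∂m := by
    refine le_trans ?_ (hconv t htI N le_rfl)
    calc ENNReal.ofReal (Q * t ^ N) ^ (1 / N) * (m A) ^ (1 / N)
        = ∫⁻ _, ENNReal.ofReal (Q * t ^ N) ^ (1 / N) * (m A) ^ (1 / N) ∂q := by
          rw [lintegral_const, measure_univ, mul_one]
      _ ≤ _ := by
          apply lintegral_mono_ae
          filter_upwards [hqd, hderiv] with z h1 h2
          refine le_trans ?_ le_add_self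
          apply mul_le_mul'
          · have h3 := hτ (dist z.1 z.2) dist_nonneg h1 t ht0 ht1.le
            have h4 := ENNReal.rpow_le_rpow h3 (z := 1 / N) (by positivity)
            rwa [← ENNReal.rpow_mul, mul_one_div_cancel hN0.ne', ENNReal.rpow_one] at h4
          · rw [h2, neg_div, ENNReal.rpow_neg, ← ENNReal.inv_rpow, inv_inv]
  -- conclusion
  have hfinal := hlow.trans (entropy_le hN hWm hconc)
  rw [← ENNReal.mul_rpow_of_nonneg _ _ (by positivity)] at hfinal
  have h6 := ENNReal.rpow_le_rpow hfinal hN0.le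
  rwa [← ENNReal.rpow_mul, ← ENNReal.rpow_mul, one_div_mul_cancel hN0.ne', ENNReal.rpow_one,
    ENNReal.rpow_one] at h6

end

/-- the contraction property at scales below `R₀ = R₀(K,N,Q)` -/
theorem contr_uniform (K : ℝ) {N Q : ℝ} (hN : 1 < N) (hQ0 : 0 < Q) (hQ : Q < 1) :
    ∃ R₀ : ℝ, 0 < R₀ ∧ ∀ {X : Type u} [MetricSpace X] [CompleteSpace X]
      [SecondCountableTopology X] [MeasurableSpace X] [BorelSpace X] (m : Measure X),
      (∀ (x : X) (r : ℝ), m (ball x r) < ∞) → (∀ (x : X) (r : ℝ), 0 < r → 0 < m (ball x r)) →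
      (IsCD K N m ∨ IsMCP K N m) → Contr m N Q R₀ := by
  obtain ⟨θ₀, hθ₀, hτ⟩ := tau_lower (K := K) hN hQ0 hQ
  refine ⟨θ₀ / 2, by positivity, ?_⟩
  intro X _ _ _ _ _ m hfin hpos hK x R κ t hR hRR hκ hκR ht0 ht1 A hA hAsub
  have h1 : ENNReal.ofReal (Q * t ^ N) * m A ≤ m (midSet (ball x κ) A t κ) := by
    rcases hK with hK | hK
    · exact contraction_cd hfin hpos hK hN hθ₀ hτ x R κ t hR hRR hκ hκR ht0 ht1 A hA hAsub
    · exact contraction_mcp hfin hK hN hθ₀ hτ x R κ t hR hRR hκ hκR ht0 ht1 A hA hAsub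
  have htop : m (midSet (ball x κ) A t κ) ≠ ∞ :=
    ((measure_mono (midSet_subset ht0 ht1 hκ hAsub)).trans_lt (hfin _ _)).ne
  have h2 := ENNReal.toReal_mono htop h1
  rwa [ENNReal.toReal_mul, ENNReal.toReal_ofReal (by positivity)] at h2

end Vale.Agent.P242.H124
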