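import Vale.Agent.P242.H124.Block
import Mathlib.Analysis.InnerProductSpace.ProdL2

set_option linter.all false

open MeasureTheory Set Metric Filter Topology TopologicalSpace
open scoped ENNReal

universe u

namespace Vale.Agent.P242.H124

/-- the quantitative local embedding -/
theorem embed_core {N Q : ℝ} (hN : 0 < N) (hQ0 : 0 < Q) (hQ1 : Q < 1)
    (hQN : Q⁻¹ ^ 8 - Q * (12 : ℝ) ^ (-N) ≤ 1 - (12 : ℝ) ^ (-N) / 2)
    {a b : ℝ} (ha0 : 0 < a) (hb : 0 < b) :
    ∃ C : ℝ, 1 ≤ C ∧ ∀ {X : Type u} [MetricSpace X] [SeparableSpace X] [MeasurableSpace X]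
      [BorelSpace X] (m : Measure X) (R₀ R₁ : ℝ) (S : Set X), Contr m N Q R₀ →
      (∀ (x : X) (r : ℝ), m (ball x r) < ∞) → 0 < R₁ → R₁ ≤ R₀ →
      (∀ x ∈ S, ∀ r : ℝ, 0 < r → r ≤ R₁ → m.real (ball x r) ≤ b * r ^ N) →
      (∀ x ∈ S, ∀ r : ℝ, 0 < r → r ≤ R₁ → a ≤ m.real (ball x r) / r ^ N) →
      ∃ F : S → EllTwo, ∀ x z : S, dist (F x) (F z) ≤ C * dist x z ∧
        (3 * dist x z / 2 ≤ R₁ → C⁻¹ * dist x z ≤ dist (F x) (F z)) := by
  obtain ⟨L, hL, hLN⟩ := exists_L hQ1 N
  have hQi : 1 < Q⁻¹ := (one_lt_inv₀ hQ0).2 hQ1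
  obtain ⟨J, hJ⟩ := pow_unbounded_of_one_lt (b / a) hQi
  have hτ : ∀ i : Fin J, 0 < a * Q⁻¹ ^ (i : ℕ) := fun i => by (clear * - ha0 hQ0; positivity)
  set c₀ := (1 / (8 * L)) ^ 2 * (a * (12 : ℝ) ^ (-N) / 2 * (64 * L) ^ (-(2 * N))) with hc₀
  have hL0 : 0 < L := by linarith only [hL]
  have hc₀0 : 0 < c₀ := by (clear * - hL ha0; positivity)
  set C := 1 + 8 * b * J + c₀⁻¹ with hC
  have hJ0 : (0 : ℝ) ≤ J := Nat.cast_nonneg J
  have hC1 : 1 ≤ C := by
    have : 0 < c₀⁻¹ := by (clear * - hL ha0; positivity)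
    have : 0 ≤ 8 * b * J := by (clear * - hb; positivity)
    (clear hN hQ1 hQN hLN hQi hJ hτ hc₀ hL0 hc₀0 hC hJ0; linarith)
  have hC0 : 0 < C := by linarith only [hC1]
  have hCsq : C ≤ C ^ 2 := by nlinarith only [hC1]
  refine ⟨C, hC1, ?_⟩
  intro X _ _ _ _ m R₀ R₁ S h hfin hR₁0 hR₁R hub hlow
  have : SecondCountableTopology X := UniformSpace.secondCountable_of_separable X
  choose F hF1 hF2 using fun i : Fin J =>
    block_on h hfin hN hQ0 hQ1 hQN hL hLN hR₁0 hR₁R ha0 hb hub (hτ i)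
  let G : S → PiLp 2 (fun i : Fin J =>
      Lp ℝ 2 (wMeas m N (scaleFn m N L R₁ (a * Q⁻¹ ^ (i : ℕ))))) :=
    fun x => WithLp.toLp 2 (fun i => F i x)
  have hG : ∀ x z, dist (G x) (G z) ^ 2 = ∑ i, ‖F i x - F i z‖ ^ 2 := by
    intro x z
    rw [PiLp.dist_eq_of_L2, Real.sq_sqrt (Finset.sum_nonneg fun i _ => sq_nonneg _)]
    exact Finset.sum_congr rfl fun i _ => by rw [dist_eq_norm]
  have hup : ∀ x z, dist (G x) (G z) ≤ C * dist x z := by
    intro x z
    apply le_of_sq_le_sq _ (by (clear * - hb hL ha0; positivity))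
    rw [hG]
    calc ∑ i, ‖F i x - F i z‖ ^ 2 ≤ ∑ _i : Fin J, 8 * b * dist x z ^ 2 :=
          Finset.sum_le_sum fun i _ => hF1 i x z
      _ = (8 * b * J) * dist x z ^ 2 := by
          rw [Finset.sum_const, Finset.card_univ, Fintype.card_fin, nsmul_eq_mul]
          ring
      _ ≤ C ^ 2 * dist x z ^ 2 := by
          apply mul_le_mul_of_nonneg_right _ (by (clear * -; positivity))
          have : 0 < c₀⁻¹ := by (clear * - hL ha0; positivity)
          linarith only [hCsq, this]
      _ = _ := by ring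
  have hcont : Continuous G := by
    have : LipschitzWith C.toNNReal G := by
      apply LipschitzWith.of_dist_le_mul
      intro x y
      rw [Real.coe_toNNReal _ hC0.le]
      exact hup x y
    exact this.continuous
  have hdown : ∀ x z : S, 3 * dist x z / 2 ≤ R₁ → C⁻¹ * dist x z ≤ dist (G x) (G z) := by
    intro x z hs1
    rcases eq_or_ne x z with rfl | hne
    · simp
    apply le_of_sq_le_sq _ dist_nonneg
    have hs0 : 0 < dist (x : X) z := dist_pos.2 (fun h => hne (Subtype.ext h))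
    change 3 * dist (x : X) z / 2 ≤ R₁ at hs1
    have hne' : (x : X) ≠ z := fun h => hne (Subtype.ext h)
    have hdd : dist x z = dist (x : X) z := rfl
    rw [hdd]
    set s := dist (x : X) z with hs
    set v := m.real (ball (x : X) (3 * s / 2)) / (3 * s / 2) ^ N with hv
    have hva : a ≤ v := hlow x x.2 _ (by (clear * - hs0; positivity)) hs1
    have hvb : v ≤ b := by
      rw [hv, div_le_iff₀ (by (clear * - hs0; positivity))]
      exact hub x x.2 _ (by (clear * - hs0; positivity)) hs1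
    have hva1 : 1 ≤ v / a := by rwa [one_le_div ha0]
    obtain ⟨n, hn1, hn2⟩ := exists_nat_pow_near hva1 hQi
    have hnJ : n < J := by
      by_contra hcon
      rw [not_lt] at hcon
      have h1 : Q⁻¹ ^ J ≤ Q⁻¹ ^ n := pow_le_pow_right₀ hQi.le hcon
      have h2 : v / a ≤ b / a := by (clear * - hvb ha0; gcongr)
      linarith only [hJ, hn1, h1, h2]
    rw [le_div_iff₀ ha0] at hn1
    rw [div_lt_iff₀ ha0] at hn2
    have h3 := hF2 ⟨n, hnJ⟩ x z hne' hs1 (hlow x x.2) (by
      show a * Q⁻¹ ^ n ≤ v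
      linarith only [hn1]) (by
      show v ≤ Q⁻¹ * (a * Q⁻¹ ^ n)
      have : Q⁻¹ * (a * Q⁻¹ ^ n) = Q⁻¹ ^ (n + 1) * a := by ring
      linarith only [hn2, this])
    have h4 : ‖F ⟨n, hnJ⟩ x - F ⟨n, hnJ⟩ z‖ ^ 2 ≤ dist (G x) (G z) ^ 2 := by
      rw [hG]
      exact Finset.single_le_sum (f := fun i => ‖F i x - F i z‖ ^ 2)
        (fun i _ => sq_nonneg _) (Finset.mem_univ _)
    refine le_trans ?_ (h3.trans h4)
    rw [mul_pow]
    apply mul_le_mul_of_nonneg_right _ (by (clear * -; positivity))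
    rw [inv_pow]
    rw [inv_le_comm₀ (by (clear * - hb hL ha0; positivity)) hc₀0]
    have : 0 ≤ 8 * b * J := by (clear * - hb; positivity)
    linarith only [hCsq, this]
  obtain ⟨F', hF'⟩ := exists_map_ellTwo hcont
  refine ⟨F', fun x z => ?_⟩
  rw [hF']
  exact ⟨hup x z, hdown x z⟩

/-- extension of a map of a subset -/
theorem embedsInHilbert_of {X : Type u} [MetricSpace X] {S : Set X} {L : ℝ} (F : S → EllTwo)
    (h : ∀ x z : S, L⁻¹ * dist x z ≤ dist (F x) (F z) ∧ dist (F x) (F z) ≤ L * dist x z) :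
    EmbedsInHilbert S L := by
  classical
  refine ⟨fun x k => if hx : x ∈ S then F ⟨x, hx⟩ k else 0, fun x hx => ?_, fun x hx z hz => ?_⟩
  · simp only [dif_pos hx]
    exact ellTwo_summable _
  · simp only [dif_pos hx, dif_pos hz]
    rw [← ellTwo_dist]
    exact h ⟨x, hx⟩ ⟨z, hz⟩

/-- combination with finitely many distance functions -/
theorem embed_far {X : Type u} [MetricSpace X] [SeparableSpace X] {S : Set X} {C R₁ : ℝ}
    (hC : 1 ≤ C) (hR₁ : 0 < R₁) (F : S → EllTwo)
    (hF : ∀ x z : S, dist (F x) (F z) ≤ C * dist x z ∧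
        (3 * dist x z / 2 ≤ R₁ → C⁻¹ * dist x z ≤ dist (F x) (F z)))
    (T : Finset X) (hT : S ⊆ ⋃ y ∈ T, ball y (R₁ / 6)) :
    EmbedsInHilbert S (2 * C + T.card) := by
  classical
  have : SecondCountableTopology X := UniformSpace.secondCountable_of_separable X
  let G : S → WithLp 2 (EllTwo × EuclideanSpace ℝ T) := fun x =>
    WithLp.toLp 2 (F x, WithLp.toLp 2 fun y : T => dist (x : X) (y : X))
  have hC0 : 0 < C := by linarith only [hC]
  have hcard : (0 : ℝ) ≤ T.card := Nat.cast_nonneg _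
  have hG : ∀ x z : S, dist (G x) (G z) ^ 2 =
      dist (F x) (F z) ^ 2 + ∑ y : T, (dist (x : X) y - dist (z : X) y) ^ 2 := by
    intro x z
    rw [WithLp.prod_dist_eq_of_L2, Real.sq_sqrt (by positivity)]
    congr 1
    rw [EuclideanSpace.dist_eq, Real.sq_sqrt (Finset.sum_nonneg fun i _ => sq_nonneg _)]
    refine Finset.sum_congr rfl fun y _ => ?_
    rw [Real.dist_eq, sq_abs]
    rfl
  have hup : ∀ x z : S, dist (G x) (G z) ≤ (2 * C + T.card) * dist x z := by
    intro x z
    apply le_of_sq_le_sq _ (by positivity)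
    rw [hG]
    have h1 : dist (F x) (F z) ^ 2 ≤ (C * dist x z) ^ 2 :=
      pow_le_pow_left₀ dist_nonneg (hF x z).1 2
    have h2 : ∑ y : T, (dist (x : X) y - dist (z : X) y) ^ 2 ≤ T.card * dist x z ^ 2 := by
      calc ∑ y : T, (dist (x : X) y - dist (z : X) y) ^ 2 ≤ ∑ _y : T, dist x z ^ 2 := by
            apply Finset.sum_le_sum
            intro y _
            rw [← sq_abs (dist (x : X) y - dist (z : X) y)]
            exact pow_le_pow_left₀ (abs_nonneg _) (abs_dist_sub_le (x : X) z y) 2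
        _ = _ := by
            rw [Finset.sum_const, Finset.card_univ, Fintype.card_coe, nsmul_eq_mul]
    have h3 : C ^ 2 + T.card ≤ (2 * C + T.card) ^ 2 := by nlinarith only [hC, hcard]
    calc _ ≤ (C * dist x z) ^ 2 + T.card * dist x z ^ 2 := add_le_add h1 h2
      _ = (C ^ 2 + T.card) * dist x z ^ 2 := by ring
      _ ≤ (2 * C + T.card) ^ 2 * dist x z ^ 2 :=
          mul_le_mul_of_nonneg_right h3 (sq_nonneg _)
      _ = _ := by ring
  have hdown : ∀ x z : S, (2 * C + T.card)⁻¹ * dist x z ≤ dist (G x) (G z) := by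
    intro x z
    have hinv : (2 * C + T.card)⁻¹ ≤ C⁻¹ := by
      apply inv_anti₀ hC0
      linarith only [hC0, hcard]
    have hinv2 : (2 * C + T.card)⁻¹ ≤ 1 / 2 := by
      rw [one_div]
      apply inv_anti₀ two_pos
      linarith only [hC, hcard]
    rcases le_or_gt (3 * dist x z / 2) R₁ with hs | hs
    · have h1 := (hF x z).2 hs
      have h2 : dist (F x) (F z) ≤ dist (G x) (G z) := by
        apply le_of_sq_le_sq _ dist_nonneg
        rw [hG]
        have : 0 ≤ ∑ y : T, (dist (x : X) y - dist (z : X) y) ^ 2 :=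
          Finset.sum_nonneg fun i _ => sq_nonneg _
        linarith only [this]
      exact (mul_le_mul_of_nonneg_right hinv dist_nonneg).trans (h1.trans h2)
    · have h1 := hT x.2
      simp only [mem_iUnion, exists_prop] at h1
      obtain ⟨y, hy, hxy⟩ := h1
      rw [mem_ball] at hxy
      have hdd : dist x z = dist (x : X) z := rfl
      have h2 : dist x z / 2 ≤ |dist (x : X) y - dist (z : X) y| := by
        rw [abs_sub_comm]
        refine le_trans ?_ (le_abs_self _)
        have h3 := dist_triangle (x : X) y z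
        rw [dist_comm y (z : X)] at h3
        rw [hdd] at hs ⊢
        linarith only [hxy, hs, h3]
      have h4 : |dist (x : X) y - dist (z : X) y| ≤ dist (G x) (G z) := by
        apply le_of_sq_le_sq _ dist_nonneg
        rw [hG, sq_abs]
        have h5 : (dist (x : X) y - dist (z : X) y) ^ 2 ≤
            ∑ y : T, (dist (x : X) y - dist (z : X) y) ^ 2 :=
          Finset.single_le_sum (f := fun y : T => (dist (x : X) y - dist (z : X) y) ^ 2)
            (fun i _ => sq_nonneg _) (Finset.mem_univ (⟨y, hy⟩ : T))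
        have h6 := sq_nonneg (dist (F x) (F z))
        linarith only [h5, h6]
      have h7 := mul_le_mul_of_nonneg_right hinv2 (dist_nonneg (x := x) (y := z))
      linarith only [h2, h4, h7]
  have hcont : Continuous G := by
    have : LipschitzWith (2 * C + T.card).toNNReal G := by
      apply LipschitzWith.of_dist_le_mul
      intro x y
      rw [Real.coe_toNNReal _ (by positivity)]
      exact hup x y
    exact this.continuous
  obtain ⟨F', hF'⟩ := exists_map_ellTwo hcont
  refine embedsInHilbert_of F' fun x z => ?_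
  rw [hF']
  exact ⟨hdown x z, hup x z⟩

end Vale.Agent.P242.H124
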