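import Vale.Agent.P242.CDDefs

open MeasureTheory Set Metric
open scoped ENNReal

universe u

namespace Vale.Agent.P242.H124

/-- The measure contraction property `MCP(K,N)` of the metric measure space `(X, d, m)` (Ohta,
Sturm; entropic form): every point `o` and every bounded measurable set `A` of positive finite
measure are joined by a `W₂`-geodesic `Γ` from the Dirac mass at `o` to the normalized restriction
of `m` to `A` which is absolutely continuous at the times `0 < t ≤ 1` and satisfies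
`∫ ρ_t^{1-1/N} dm ≥ ∫ τ^{(t)}_{K,N}(d(o,y)) ρ₁(y)^{-1/N} dΓ₁(y)`. -/
def IsMCP {X : Type u} [MetricSpace X] [MeasurableSpace X] (K N : ℝ) (m : Measure X) : Prop :=
  ∀ (o : X) (A : Set X), MeasurableSet A → Bornology.IsBounded A → m A ≠ 0 → m A ≠ ∞ →
    ∃ Γ : ℝ → Measure X, Γ 0 = Measure.dirac o ∧ Γ 1 = (m A)⁻¹ • m.restrict A ∧
      IsW2Geodesic Γ ∧ (∀ t ∈ Ioc (0 : ℝ) 1, IsProbabilityMeasure (Γ t) ∧ Γ t ≪ m) ∧
      ∀ t ∈ Ioc (0 : ℝ) 1,
        ∫⁻ y, tauCoeff K N t (dist o y) * ((Γ 1).rnDeriv m y) ^ (-1 / N) ∂(Γ 1) ≤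
        ∫⁻ y, ((Γ t).rnDeriv m y) ^ (1 - 1 / N) ∂m

/-- The set `S` embeds in the Hilbert space `ℓ²` of square-summable real sequences with
bi-Lipschitz constant `L`. -/
def EmbedsInHilbert {X : Type u} [MetricSpace X] (S : Set X) (L : ℝ) : Prop :=
  ∃ F : X → ℕ → ℝ, (∀ x ∈ S, Summable fun k => F x k ^ 2) ∧
    ∀ x ∈ S, ∀ z ∈ S, L⁻¹ * dist x z ≤ √(∑' k, (F x k - F z k) ^ 2) ∧
      √(∑' k, (F x k - F z k) ^ 2) ≤ L * dist x z

/-- The measure of the balls with centre in `S` and radius `r ≤ r₀` is at most `b r^N`. -/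
def UpperRegularOn {X : Type u} [MetricSpace X] [MeasurableSpace X] (m : Measure X) (N : ℝ)
    (S : Set X) (b r₀ : ℝ) : Prop :=
  ∀ x ∈ S, ∀ r : ℝ, 0 < r → r ≤ r₀ → m (ball x r) ≤ ENNReal.ofReal (b * r ^ N)

end Vale.Agent.P242.H124
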