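import Vale.Agent.P242.H124.Global

set_option linter.all false

open MeasureTheory Set Metric Filter Topology TopologicalSpace
open scoped ENNReal

universe u

namespace Vale.Agent.P242.H124

theorem EmbedsInHilbert.mono {X : Type u} [MetricSpace X] {S : Set X} {L L' : ℝ}
    (h : EmbedsInHilbert S L) (hL : 0 < L) (hLL : L ≤ L') : EmbedsInHilbert S L' := by
  obtain ⟨F, hF1, hF2⟩ := h
  refine ⟨F, hF1, fun x hx z hz => ?_⟩
  obtain ⟨h1, h2⟩ := hF2 x hx z hz
  exact ⟨(mul_le_mul_of_nonneg_right (inv_anti₀ hL hLL) dist_nonneg).trans h1,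
    h2.trans (mul_le_mul_of_nonneg_right hLL dist_nonneg)⟩

theorem EmbedsInHilbert.mono_set {X : Type u} [MetricSpace X] {S S' : Set X} {L : ℝ}
    (h : EmbedsInHilbert S L) (hS : S' ⊆ S) : EmbedsInHilbert S' L := by
  obtain ⟨F, hF1, hF2⟩ := h
  exact ⟨F, fun x hx => hF1 x (hS hx), fun x hx z hz => hF2 x (hS hx) z (hS hz)⟩

/-- uniform embedding of bounded upper regular sets -/
theorem master (K : ℝ) {N : ℝ} (hN : 1 < N) {b v D r₁ : ℝ} (hb : 0 < b) (hv : 0 < v)
    (hD : 0 < D) (hr₁ : 0 < r₁) :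
    ∃ L : ℝ, 1 ≤ L ∧ ∀ {X : Type u} [MetricSpace X] [CompleteSpace X] [SeparableSpace X]
      [MeasurableSpace X] [BorelSpace X] (m : Measure X),
      (∀ (x : X) (r : ℝ), m (ball x r) < ∞) → (∀ (x : X) (r : ℝ), 0 < r → 0 < m (ball x r)) →
      (IsCD K N m ∨ IsMCP K N m) → ∀ (p : X) (S : Set X), S ⊆ ball p D →
      ENNReal.ofReal v ≤ m (ball p 1) → UpperRegularOn m N S b r₁ → EmbedsInHilbert S L := by
  classical
  have hN0 : 0 < N := by linarith only [hN]
  obtain ⟨Q, hQ0, hQ1, hQN⟩ := exists_Q (N := N)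
  obtain ⟨R₀, hR₀, hcontr⟩ := contr_uniform.{u} K hN hQ0 hQ1
  set r : ℝ := min (R₀ / 2) (min r₁ (1 / 2)) with hr
  have hr0 : 0 < r := by rw [hr]; positivity
  have hr2 : 2 * r ≤ R₀ := by
    have : r ≤ R₀ / 2 := min_le_left _ _
    linarith only [this]
  have hrR : r ≤ R₀ := by linarith only [hr2, hr0]
  have hrr₁ : r ≤ r₁ := (min_le_right _ _).trans (min_le_left _ _)
  have hr1 : r ≤ 1 / 2 := (min_le_right _ _).trans (min_le_right _ _)
  set M : ℕ := ⌈(8 * r / (r / 8)) ^ N / Q ^ 2⌉₊ with hM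
  have hM1 : (8 * r / (r / 8)) ^ N / Q ^ 2 ≤ M := Nat.le_ceil _
  have hM0 : 0 < M := Nat.ceil_pos.2 (by positivity)
  obtain ⟨k, hk⟩ := pow_unbounded_of_one_lt ((D + 2) / r) (by norm_num : (1 : ℝ) < 3 / 2)
  have hkD : D + 2 ≤ (3 / 2) ^ k * r := by
    rw [div_lt_iff₀ hr0] at hk
    exact hk.le
  set M' : ℕ := M ^ (2 ^ k) with hM'
  have hM'0 : (0 : ℝ) < M' := by
    have : 0 < M' := pow_pos hM0 _
    exact_mod_cast this
  set c : ℝ := (Q * (1 / 2) ^ N) ^ (2 ^ k) with hc
  have hc0 : 0 < c := by rw [hc]; positivity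
  set a : ℝ := Q * (c * (v / M')) / r ^ N with ha
  have ha0 : 0 < a := by rw [ha]; positivity
  obtain ⟨C, hC1, hC⟩ := embed_core.{u} hN0 hQ0 hQ1 hQN ha0 hb
  refine ⟨2 * C + M', by linarith only [hC1, hM'0], ?_⟩
  intro X _ _ _ _ _ m hfin hpos hK p S hS hvp hreg
  have hsc : SecondCountableTopology X := UniformSpace.secondCountable_of_separable X
  have h := hcontr m hfin hpos hK
  have hmid : Mids X := by
    rcases hK with hK | hK
    · exact mids_of_CD hfin hpos hK
    · exact mids_of_MCP hfin hpos hK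
  obtain ⟨T, hT1, hT2⟩ := cover hQ0 hQ1.le h hfin hpos hmid hr0 hr2
    (s := r / 8) (by positivity) (le_refl _) hM1 k p
  -- a ball of definite volume near `p`
  obtain ⟨y, hyT, hyp, hyv⟩ : ∃ y ∈ T, dist p y < 1 + r / 8 ∧ v / M' ≤ m.real (ball y (r / 8)) := by
    by_contra hcon
    push Not at hcon
    set T₁ := T.filter (fun y => dist p y < 1 + r / 8) with hT₁
    have hsub : ball p 1 ⊆ ⋃ y ∈ T₁, ball y (r / 8) := by
      intro z hz
      have h1 : z ∈ ball p ((3 / 2) ^ k * r) :=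
        ball_subset_ball (by linarith only [hkD, hD]) hz
      have h2 := hT2 h1
      simp only [mem_iUnion, exists_prop] at h2 ⊢
      obtain ⟨y, hy, hzy⟩ := h2
      refine ⟨y, Finset.mem_filter.2 ⟨hy, ?_⟩, hzy⟩
      rw [mem_ball] at hz hzy
      have h3 := dist_triangle p z y
      rw [dist_comm p z] at h3
      linarith only [h3, hz, hzy]
    have h1 : v ≤ m.real (ball p 1) := by
      rw [Measure.real]
      exact (ENNReal.ofReal_le_iff_le_toReal (hfin _ _).ne).1 hvp
    have h2 : m.real (ball p 1) ≤ ∑ y ∈ T₁, m.real (ball y (r / 8)) := by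
      refine (measureReal_mono hsub ?_).trans (measureReal_biUnion_finset_le _ _)
      refine ((measure_biUnion_finset_le _ _).trans_lt ?_).ne
      exact ENNReal.sum_lt_top.2 fun y _ => hfin y _
    have h3 : ∑ y ∈ T₁, m.real (ball y (r / 8)) < v := by
      rcases T₁.eq_empty_or_nonempty with hemp | hne
      · rw [hemp, Finset.sum_empty]
        exact hv
      · calc ∑ y ∈ T₁, m.real (ball y (r / 8)) < ∑ _y ∈ T₁, v / M' := by
              apply Finset.sum_lt_sum_of_nonempty hne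
              intro y hy
              rw [Finset.mem_filter] at hy
              exact hcon y hy.1 hy.2
          _ = T₁.card * (v / M') := by rw [Finset.sum_const, nsmul_eq_mul]
          _ ≤ M' * (v / M') := by
              apply mul_le_mul_of_nonneg_right _ (by positivity)
              have : T₁.card ≤ M' := (Finset.card_filter_le _ _).trans hT1
              exact_mod_cast this
          _ = v := by field_simp
    linarith only [h1, h2, h3]
  have hlow0 : ∀ x ∈ S, c * (v / M') ≤ m.real (ball x r) := by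
    intro x hx
    have h1 := hS hx
    rw [mem_ball] at h1
    have h2 := dist_triangle y p x
    rw [dist_comm y p, dist_comm p x] at h2
    have h3 := chain hQ0 hQ1.le h hfin hmid hr0 hr2 k y x (by linarith only [h1, h2, hyp, hkD, hr1])
    refine le_trans ?_ h3
    apply mul_le_mul_of_nonneg_left _ hc0.le
    exact hyv.trans (measureReal_mono (ball_subset_ball (by linarith only [hr0])) (hfin _ _).ne)
  have hlow : ∀ x ∈ S, ∀ ρ : ℝ, 0 < ρ → ρ ≤ r → a ≤ m.real (ball x ρ) / ρ ^ N := by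
    intro x hx ρ hρ hρr
    have h1 := h.mono hfin hQ1.le (x := x) (s := ρ) (R := r) hρ hρr hrR
    rw [le_div_iff₀ (by positivity)]
    refine le_trans ?_ h1
    rw [Real.div_rpow hρ.le hr0.le]
    calc a * ρ ^ N = Q * (ρ ^ N / r ^ N) * (c * (v / M')) := by
          rw [ha]; ring
      _ ≤ _ := mul_le_mul_of_nonneg_left (hlow0 x hx) (by positivity)
  have hub : ∀ x ∈ S, ∀ ρ : ℝ, 0 < ρ → ρ ≤ r → m.real (ball x ρ) ≤ b * ρ ^ N := by
    intro x hx ρ hρ hρr
    exact ENNReal.toReal_le_of_le_ofReal (by positivity) (hreg x hx ρ hρ (hρr.trans hrr₁))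
  obtain ⟨F, hF⟩ := hC m R₀ r S h hfin hr0 hrR hub hlow
  have hfar := embed_far hC1 hr0 F hF T (by
    intro x hx
    have h1 : x ∈ ball p ((3 / 2) ^ k * r) :=
      ball_subset_ball (by linarith only [hkD]) (hS hx)
    have h2 := hT2 h1
    simp only [mem_iUnion, exists_prop] at h2 ⊢
    obtain ⟨y, hy, hxy⟩ := h2
    exact ⟨y, hy, ball_subset_ball (by linarith only [hr0]) hxy⟩)
  refine hfar.mono ?_ ?_
  · have : (0 : ℝ) ≤ T.card := Nat.cast_nonneg _
    linarith only [this, hC1]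
  · have : (T.card : ℝ) ≤ M' := by exact_mod_cast hT1
    linarith only [this]

/-- noncollapsed spaces -/
theorem noncollapsed (K : ℝ) {n : ℕ} (hn : 2 ≤ n) {v D : ℝ} (hv : 0 < v) (hD : 0 < D) :
    ∃ L : ℝ, 1 ≤ L ∧ ∀ {X : Type u} [MetricSpace X] [CompleteSpace X] [SeparableSpace X]
      [MeasurableSpace X] [BorelSpace X],
      (∀ (x : X) (r : ℝ), (μH[(n : ℝ)] : Measure X) (ball x r) < ∞) →
      (∀ (x : X) (r : ℝ), 0 < r → 0 < (μH[(n : ℝ)] : Measure X) (ball x r)) →
      (IsCD K n (μH[(n : ℝ)] : Measure X) ∨ IsMCP K n (μH[(n : ℝ)] : Measure X)) →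
      ∀ p : X, ENNReal.ofReal v ≤ (μH[(n : ℝ)] : Measure X) (ball p 1) →
        EmbedsInHilbert (ball p D) L := by
  have hn1 : (1 : ℝ) < n := by
    have : (2 : ℝ) ≤ n := by exact_mod_cast hn
    linarith
  obtain ⟨Q, hQ0, hQ1, hQN⟩ := exists_Q (N := (n : ℝ))
  obtain ⟨R₀, hR₀, hcontr⟩ := contr_uniform.{u} K hn1 hQ0 hQ1
  obtain ⟨L, hL1, hL⟩ := master.{u} K hn1 (b := 16 ^ n / Q ^ 2) (v := v) (D := D) (r₁ := R₀ / 2)
    (by positivity) hv hD (by positivity)
  refine ⟨L, hL1, ?_⟩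
  intro X _ _ _ _ _ hfin hpos hK p hvp
  have hsc : SecondCountableTopology X := UniformSpace.secondCountable_of_separable X
  have h := hcontr (μH[(n : ℝ)] : Measure X) hfin hpos hK
  refine hL _ hfin hpos hK p (ball p D) (Subset.refl _) hvp ?_
  intro x _ r hr hrR
  have h1 := hausdorff_upper h hfin hpos hQ0 hQ1.le x hr (by linarith only [hrR])
  rw [Measure.real] at h1
  rw [Real.rpow_natCast]
  exact (ENNReal.le_ofReal_iff_toReal_le (hfin _ _).ne (by positivity)).2 h1

end Vale.Agent.P242.H124
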