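import Vale.Agent.P242.H124.Core

set_option linter.all false

open MeasureTheory Set Metric Filter Topology TopologicalSpace
open scoped ENNReal

universe u

namespace Vale.Agent.P242.H124

/-- approximate midpoints exist -/
def Mids (X : Type u) [MetricSpace X] : Prop :=
  ∀ (x y : X) (κ : ℝ), 0 < κ → ∃ z, dist x z ≤ dist x y / 2 + κ ∧ dist z y ≤ dist x y / 2 + κ

section

variable {X : Type u} [MetricSpace X]

theorem mid_of_midSet {x y : X} {κ : ℝ} (hκ : 0 < κ)
    (h : (midSet (ball x (κ / 3)) (ball y (κ / 3)) (1 / 2) (κ / 3)).Nonempty) :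
    ∃ z, dist x z ≤ dist x y / 2 + κ ∧ dist z y ≤ dist x y / 2 + κ := by
  obtain ⟨z, x₀, hx₀, x₁, hx₁, h1, h2⟩ := h
  rw [mem_ball] at hx₀ hx₁
  have h3 := (abs_lt.1 h1).2
  have h4 := (abs_lt.1 h2).2
  have h5 := dist_triangle x x₀ z
  rw [dist_comm x x₀] at h5
  have h6 := dist_triangle z x₁ y
  have h7 : dist x₀ x₁ ≤ dist x y + 2 * (κ / 3) := by
    have h8 := dist_triangle x₀ x x₁
    have h9 := dist_triangle x y x₁
    rw [dist_comm y x₁] at h9
    linarith only [h8, h9, hx₀, hx₁]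
  refine ⟨z, ?_, ?_⟩
  · linarith only [h3, h5, h7, hx₀]
  · linarith only [h4, h6, h7, hx₁]

variable [CompleteSpace X] [SecondCountableTopology X] [MeasurableSpace X] [BorelSpace X]

theorem nonempty_of_conc {ν : Measure X} [IsProbabilityMeasure ν] {W : Set X}
    (h : ν Wᶜ = 0) : W.Nonempty := by
  by_contra hW
  rw [not_nonempty_iff_eq_empty] at hW
  rw [hW, compl_empty, measure_univ] at h
  exact one_ne_zero h

theorem mids_of_CD {m : Measure X} {K N : ℝ} (hfin : ∀ (x : X) (r : ℝ), m (ball x r) < ∞)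
    (hpos : ∀ (x : X) (r : ℝ), 0 < r → 0 < m (ball x r)) (hCD : IsCD K N m) : Mids X := by
  intro x y κ hκ
  apply mid_of_midSet hκ
  have hκ3 : 0 < κ / 3 := by positivity
  have hB0 : m (ball x (κ / 3)) ≠ 0 := (hpos x _ hκ3).ne'
  have hBtop : m (ball x (κ / 3)) ≠ ∞ := (hfin x _).ne
  have hC0 : m (ball y (κ / 3)) ≠ 0 := (hpos y _ hκ3).ne'
  have hCtop : m (ball y (κ / 3)) ≠ ∞ := (hfin y _).ne
  have hP0 : IsP2 m (unif m (ball x (κ / 3))) := unif_isP2 (Subset.refl _) hB0 hBtop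
  have hP1 : IsP2 m (unif m (ball y (κ / 3))) := unif_isP2 (Subset.refl _) hC0 hCtop
  obtain ⟨q, Γ, ⟨hqc, hqo⟩, hΓ0, hΓ1, hΓ, hΓP, -⟩ := hCD _ _ hP0 hP1
  have hprob0 : IsProbabilityMeasure (unif m (ball x (κ / 3))) := hP0.1
  have hprobq : IsProbabilityMeasure q := hqc.isProb
  have htI : (1 / 2 : ℝ) ∈ Icc (0 : ℝ) 1 := ⟨by norm_num, by norm_num⟩
  have hprobt : IsProbabilityMeasure (Γ (1 / 2)) := (hΓP _ htI).1
  have hq0 : ∀ᵐ z ∂q, z.1 ∈ ball x (κ / 3) := by
    have h1 : ∀ᵐ z ∂(q.map Prod.fst), z ∈ ball x (κ / 3) := by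
      rw [hqc.1]
      exact unif_compl measurableSet_ball
    exact ae_of_ae_map measurable_fst.aemeasurable h1
  have hq1 : ∀ᵐ z ∂q, z.2 ∈ ball y (κ / 3) := by
    have h1 : ∀ᵐ z ∂(q.map Prod.snd), z ∈ ball y (κ / 3) := by
      rw [hqc.2]
      exact unif_compl measurableSet_ball
    exact ae_of_ae_map measurable_snd.aemeasurable h1
  have hqd : ∀ᵐ z ∂q, dist z.1 z.2 ≤ dist x y + κ := by
    filter_upwards [hq0, hq1] with z h1 h2
    rw [mem_ball] at h1 h2
    have h3 := dist_triangle z.1 x z.2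
    have h4 := dist_triangle x y z.2
    rw [dist_comm y z.2] at h4
    linarith only [h1, h2, h3, h4, hκ]
  have hWfin : W2sq (unif m (ball x (κ / 3))) (unif m (ball y (κ / 3))) ≠ ∞ := by
    rw [← hqo]
    unfold transportCost
    have h1 : ∫⁻ z, ENNReal.ofReal (dist z.1 z.2 ^ 2) ∂q ≤
        ∫⁻ z, ENNReal.ofReal ((dist x y + κ) ^ 2) ∂q := by
      apply lintegral_mono_ae
      filter_upwards [hqd] with z hz
      apply ENNReal.ofReal_le_ofReal
      exact pow_le_pow_left₀ dist_nonneg hz 2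
    rw [lintegral_const, measure_univ, mul_one] at h1
    exact (h1.trans_lt ENNReal.ofReal_lt_top).ne
  have h0 := hΓ 0 ⟨le_refl _, zero_le_one⟩ (1 / 2) htI
  have h1 := hΓ (1 / 2) htI 1 ⟨zero_le_one, le_refl _⟩
  rw [hΓ0, hΓ1] at h0 h1
  have hconc := midpoint_conc (t := 1 / 2) (by norm_num) (by norm_num) hκ3 hWfin rfl
    (by rw [h0]; congr 2; norm_num) (by rw [h1]; congr 2; norm_num) measurableSet_ball
    measurableSet_ball (unif_compl measurableSet_ball) (unif_compl measurableSet_ball)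
  exact nonempty_of_conc hconc

theorem mids_of_MCP {m : Measure X} {K N : ℝ} (hfin : ∀ (x : X) (r : ℝ), m (ball x r) < ∞)
    (hpos : ∀ (x : X) (r : ℝ), 0 < r → 0 < m (ball x r)) (hMCP : IsMCP K N m) : Mids X := by
  intro x y κ hκ
  apply mid_of_midSet hκ
  have hκ3 : 0 < κ / 3 := by positivity
  have hC0 : m (ball y (κ / 3)) ≠ 0 := (hpos y _ hκ3).ne'
  have hCtop : m (ball y (κ / 3)) ≠ ∞ := (hfin y _).ne
  obtain ⟨Γ, hΓ0, hΓ1, hΓ, hΓP, -⟩ :=
    hMCP x (ball y (κ / 3)) measurableSet_ball Metric.isBounded_ball hC0 hCtop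
  change Γ 1 = unif m (ball y (κ / 3)) at hΓ1
  have htI : (1 / 2 : ℝ) ∈ Icc (0 : ℝ) 1 := ⟨by norm_num, by norm_num⟩
  have hprobt : IsProbabilityMeasure (Γ (1 / 2)) := (hΓP _ ⟨by norm_num, by norm_num⟩).1
  have hprob1 : IsProbabilityMeasure (unif m (ball y (κ / 3))) := by
    rw [← hΓ1]
    exact (hΓP 1 ⟨one_pos, le_refl _⟩).1
  have hA1 : ∀ᵐ z ∂(unif m (ball y (κ / 3))), z ∈ ball y (κ / 3) := unif_compl measurableSet_ball
  have hWfin : W2sq (Measure.dirac x) (unif m (ball y (κ / 3))) ≠ ∞ := by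
    have hmeas : Measurable fun y : X => (x, y) := measurable_prodMk_left
    have hc : IsCoupling (Measure.dirac x) (unif m (ball y (κ / 3)))
        ((unif m (ball y (κ / 3))).map (fun y => (x, y))) := by
      refine ⟨?_, ?_⟩
      · rw [Measure.map_map measurable_fst hmeas]
        have : (Prod.fst ∘ fun y : X => (x, y)) = fun _ => x := rfl
        rw [this, Measure.map_const, measure_univ, one_smul]
      · rw [Measure.map_map measurable_snd hmeas]
        have : (Prod.snd ∘ fun y : X => (x, y)) = id := rfl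
        rw [this, Measure.map_id]
    have h1 : W2sq (Measure.dirac x) (unif m (ball y (κ / 3))) ≤
        transportCost ((unif m (ball y (κ / 3))).map (fun y => (x, y))) := iInf₂_le _ hc
    refine (h1.trans_lt ?_).ne
    unfold transportCost
    have h2 : Measurable fun z : X × X => ENNReal.ofReal (dist z.1 z.2 ^ 2) :=
      ((measurable_fst.dist measurable_snd).pow_const 2).ennreal_ofReal
    rw [lintegral_map h2 hmeas]
    have h3 : ∫⁻ z, ENNReal.ofReal (dist x z ^ 2) ∂(unif m (ball y (κ / 3))) ≤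
        ∫⁻ _, ENNReal.ofReal ((dist x y + κ) ^ 2) ∂(unif m (ball y (κ / 3))) := by
      apply lintegral_mono_ae
      filter_upwards [hA1] with z hz
      apply ENNReal.ofReal_le_ofReal
      rw [mem_ball] at hz
      have h4 := dist_triangle x y z
      rw [dist_comm y z] at h4
      exact pow_le_pow_left₀ dist_nonneg (by linarith only [hz, h4, hκ]) 2
    rw [lintegral_const, measure_univ, mul_one] at h3
    exact h3.trans_lt ENNReal.ofReal_lt_top
  have hd0 : (Measure.dirac x) (ball x (κ / 3))ᶜ = 0 := by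
    rw [Measure.dirac_apply' _ measurableSet_ball.compl, indicator_of_notMem]
    simp [hκ]
  have h0 := hΓ 0 ⟨le_refl _, zero_le_one⟩ (1 / 2) htI
  have h1 := hΓ (1 / 2) htI 1 ⟨zero_le_one, le_refl _⟩
  rw [hΓ0, hΓ1] at h0 h1
  have hconc := midpoint_conc (t := 1 / 2) (by norm_num) (by norm_num) hκ3 hWfin rfl
    (by rw [h0]; congr 2; norm_num) (by rw [h1]; congr 2; norm_num) measurableSet_ball
    measurableSet_ball hd0 (unif_compl measurableSet_ball)
  exact nonempty_of_conc hconc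

omit [CompleteSpace X] in
/-- comparison of the volumes of balls with distant centres -/
theorem chain {N Q R₀ : ℝ} (hQ0 : 0 < Q) (hQ1 : Q ≤ 1) {m : Measure X}
    (h : Contr m N Q R₀) (hfin : ∀ (x : X) (r : ℝ), m (ball x r) < ∞) (hmid : Mids X)
    {r : ℝ} (hr : 0 < r) (hr2 : 2 * r ≤ R₀) (k : ℕ) :
    ∀ x y : X, dist x y ≤ (3 / 2) ^ k * r →
      (Q * (1 / 2) ^ N) ^ (2 ^ k) * m.real (ball x r) ≤ m.real (ball y r) := by
  have hc : 0 < Q * (1 / 2 : ℝ) ^ N := by positivity
  induction k with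
  | zero =>
    intro x y hxy
    rw [pow_zero, one_mul] at hxy
    have h1 := h.mono hfin hQ1 (x := y) (s := r) (R := 2 * r) hr (by linarith only [hr]) hr2
    rw [pow_zero, pow_one]
    have h2 : r / (2 * r) = 1 / 2 := by
      rw [div_eq_div_iff (by positivity) two_ne_zero]
      ring
    rw [h2] at h1
    refine le_trans ?_ h1
    apply mul_le_mul_of_nonneg_left _ hc.le
    apply measureReal_mono _ (hfin _ _).ne
    intro z hz
    rw [mem_ball] at hz ⊢
    have := dist_triangle z x y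
    linarith only [hz, hxy, this]
  | succ k ih =>
    intro x y hxy
    set D : ℝ := (3 / 2) ^ k * r with hD
    have hD0 : 0 < D := by positivity
    have hD1 : (3 / 2 : ℝ) ^ (k + 1) * r = 3 / 2 * D := by rw [hD]; ring
    rw [hD1] at hxy
    obtain ⟨z, hz1, hz2⟩ := hmid x y (D / 4) (by positivity)
    have h1 := ih x z (by linarith only [hz1, hxy])
    have h2 := ih z y (by linarith only [hz2, hxy])
    have hp : (0 : ℝ) ≤ (Q * (1 / 2) ^ N) ^ (2 ^ k) := by positivity
    calc (Q * (1 / 2) ^ N) ^ (2 ^ (k + 1)) * m.real (ball x r)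
        = (Q * (1 / 2) ^ N) ^ (2 ^ k) * ((Q * (1 / 2) ^ N) ^ (2 ^ k) * m.real (ball x r)) := by
          rw [← mul_assoc, ← pow_add, ← two_mul, ← pow_succ']
      _ ≤ (Q * (1 / 2) ^ N) ^ (2 ^ k) * m.real (ball z r) := mul_le_mul_of_nonneg_left h1 hp
      _ ≤ _ := h2

omit [CompleteSpace X] in
/-- covering numbers of large balls -/
theorem cover {N Q R₀ : ℝ} (hQ0 : 0 < Q) (hQ1 : Q ≤ 1) {m : Measure X}
    (h : Contr m N Q R₀) (hfin : ∀ (x : X) (r : ℝ), m (ball x r) < ∞)
    (hpos : ∀ (x : X) (r : ℝ), 0 < r → 0 < m (ball x r)) (hmid : Mids X)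
    {r s : ℝ} (hr : 0 < r) (hr2 : 2 * r ≤ R₀) (hs : 0 < s) (hsr : s ≤ r / 8) {M : ℕ}
    (hM : (8 * r / s) ^ N / Q ^ 2 ≤ M) (k : ℕ) :
    ∀ x : X, ∃ T : Finset X, T.card ≤ M ^ (2 ^ k) ∧ ball x ((3 / 2) ^ k * r) ⊆ ⋃ y ∈ T, ball y s := by
  classical
  induction k with
  | zero =>
    intro x
    obtain ⟨T, hT1, hT2⟩ := exists_net h hfin hpos hQ0 hQ1 x hr hr2 hs (by linarith only [hr, hsr])
    refine ⟨T, ?_, ?_⟩
    · rw [pow_zero, pow_one]
      exact_mod_cast hT1.trans hM
    · rw [pow_zero, one_mul]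
      exact hT2
  | succ k ih =>
    intro x
    set D : ℝ := (3 / 2) ^ k * r with hD
    have hD0 : 0 < D := by positivity
    have hDr : r ≤ D := by
      rw [hD]
      have : (1 : ℝ) ≤ (3 / 2) ^ k := one_le_pow₀ (by norm_num)
      nlinarith only [this, hr]
    have hD1 : (3 / 2 : ℝ) ^ (k + 1) * r = 3 / 2 * D := by rw [hD]; ring
    obtain ⟨T, hT1, hT2⟩ := ih x
    choose T' hT'1 hT'2 using ih
    refine ⟨T.biUnion T', ?_, ?_⟩
    · calc (T.biUnion T').card ≤ T.card * M ^ (2 ^ k) :=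
            Finset.card_biUnion_le_card_mul _ _ _ fun y _ => hT'1 y
        _ ≤ M ^ (2 ^ k) * M ^ (2 ^ k) := Nat.mul_le_mul_right _ hT1
        _ = M ^ (2 ^ (k + 1)) := by rw [← pow_add, ← two_mul, ← pow_succ']
    · intro y hy
      rw [hD1, mem_ball, dist_comm] at hy
      obtain ⟨z, hz1, hz2⟩ := hmid x y (D / 8) (by positivity)
      have hz : z ∈ ball x D := by
        rw [mem_ball, dist_comm]
        linarith only [hz1, hy, hD0]
      have h1 := hT2 hz
      simp only [mem_iUnion, exists_prop] at h1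
      obtain ⟨w, hw, hzw⟩ := h1
      have h2 : y ∈ ball w D := by
        rw [mem_ball] at hzw ⊢
        have h3 := dist_triangle y z w
        rw [dist_comm z y] at hz2
        linarith only [hzw, hz2, h3, hy, hsr, hDr, hr]
      have h3 := hT'2 w h2
      simp only [mem_iUnion, exists_prop] at h3 ⊢
      obtain ⟨v, hv, hyv⟩ := h3
      exact ⟨v, Finset.mem_biUnion.2 ⟨w, hw, hv⟩, hyv⟩

end

end Vale.Agent.P242.H124
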